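import Vale.Agent.P195.SelfExt.Cochain

/-!
P195, self-extensions: exactness of the cochains of the orbit resolutions into the constants
`FL 0`, in every degree for positive `j`, and in degrees one and two for `j = 0`.
-/

noncomputable section

namespace Vale.Agent.P195.SelfExt

open MvPolynomial Model
open Weyl (Pol)

/-- Extend a functional on forms to all polynomials. -/
theorem exists_ext {S : Submodule ℂ Pol} (F : S →ₗ[ℂ] ℂ) :
    ∃ G : Fn, ∀ f : S, G f = F f := by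
  obtain ⟨G, hG⟩ := LinearMap.exists_extend F
  exact ⟨G, fun f => LinearMap.congr_fun hG f⟩

theorem isHom {n : ℕ} (p : Lp n) : (p : Pol).IsHomogeneous n :=
  (mem_homogeneousSubmodule _ _).mp p.2

/-- Restrict a functional to forms. -/
def res (G : Fn) (S : Submodule ℂ Pol) : S →ₗ[ℂ] ℂ := G.comp S.subtype

@[simp] theorem res_apply (G : Fn) (S : Submodule ℂ Pol) (f : S) : res G S f = G f := rfl

theorem aT_coe (i k : Fin 2) (j : ℕ) (p : Lp j) :
    (aT j i k p : Pol) = Weyl.x i (Weyl.d k p) := rfl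

theorem W1_eq_sum {j : ℕ} (w : W1 j) : w = ∑ i, ∑ k, inW j i k (w i k) := by
  funext a b
  fin_cases a <;> fin_cases b <;> simp [inW, Fin.sum_univ_two]

theorem inW_apply {j : ℕ} (i k a b : Fin 2) (p : Lp j) :
    inW j i k p a b = if a = i ∧ b = k then p else 0 := by
  fin_cases i <;> fin_cases k <;> fin_cases a <;> fin_cases b <;> simp [inW]

theorem slot_four {r : Fin 7} (h : vx r = 4) : r = 6 := by
  fin_cases r <;> simp [vx] at h ⊢

theorem slot_three {r : Fin 7} (h : vx r = 3) : r = 5 := by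
  fin_cases r <;> simp [vx] at h ⊢

theorem slot_zero {r : Fin 7} (h : vx r = 0) : r = 0 := by
  fin_cases r <;> simp [vx] at h ⊢

theorem slot_one {r : Fin 7} (h : vx r = 1) : ∃ l, r = sP l := by
  fin_cases r <;> simp [vx, sP] at h ⊢

theorem slot_two {r : Fin 7} (h : vx r = 2) : ∃ l, r = sM l := by
  fin_cases r <;> simp [vx, sM] at h ⊢

theorem vx_sP (l : Fin 2) : vx (sP l) = 1 := by fin_cases l <;> rfl

theorem vx_sM (l : Fin 2) : vx (sM l) = 2 := by fin_cases l <;> rfl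

theorem sl_d1_inW {j : ℕ} (φ : Q0 j →ₗ[A] FL 0) (i k : Fin 2) (p : Lp j) :
    sl (φ.comp (d1 j)) 5 (inW j i k p) = -sl φ 6 (aT j i k p) := by
  rw [sl_d1]
  fin_cases i <;> fin_cases k <;> simp [inW_apply, Fin.sum_univ_two]

theorem cc_succ (m : ℕ) : cc (m + 1) = (m : ℂ) + 2 := by
  rw [cc, Nat.cast_add, Nat.cast_one]; ring

/-- Positive `j`, degree zero. -/
theorem low0 (m : ℕ) (φ : Q0 (m + 1) →ₗ[A] FL 0) (h : φ.comp (d1 (m + 1)) = 0) : φ = 0 := by
  obtain ⟨G, hG⟩ := exists_ext (sl φ 6)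
  refine slots_ext fun r hr p => ?_
  rw [slot_four hr, sl_zero, ← hG]
  refine deg0 G (fun i k p' hp' => ?_) (isHom p)
  have e := sl_d1_inW φ i k (⟨p', (mem_homogeneousSubmodule _ _).mpr hp'⟩ : Lp (m + 1))
  rw [h, sl_zero, zero_eq_neg, ← hG] at e
  exact e

/-- The cochain `ψ` of degree one read as four functionals. -/
theorem exists_four {j : ℕ} (φ : Q1 j →ₗ[A] FL 0) :
    ∃ ψ : Fin 2 → Fin 2 → Fn, ∀ i k, ∀ p : Lp j, ψ i k p = sl φ 5 (inW j i k p) := by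
  choose ψ hψ using fun i k => exists_ext ((sl φ 5).comp (inW j i k))
  exact ⟨ψ, hψ⟩

theorem d2p_eq {m : ℕ} (φ : Q1 (m + 1) →ₗ[A] FL 0) (ψ : Fin 2 → Fin 2 → Fn)
    (hψ : ∀ i k, ∀ p : Lp (m + 1), ψ i k p = sl φ 5 (inW (m + 1) i k p))
    (l : Fin 2) (t : Lm (m + 1)) :
    sl (φ.comp (d2p (m + 1))) (sP l) t = cp m ψ l t := by
  rw [sl_d2p, cc_succ]
  simp only [← hψ, cp, tr, LinearMap.add_apply, Fin.sum_univ_two]
  show (1 - ((m : ℂ) + 2)) * (ψ l 0 (Weyl.x 0 t) + ψ l 1 (Weyl.x 1 t)) +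
      ((m : ℂ) + 2) * (ψ 0 0 (Weyl.x l t) + ψ 1 1 (Weyl.x l t)) = _
  ring

theorem d2m_eq {m : ℕ} (φ : Q1 (m + 1) →ₗ[A] FL 0) (ψ : Fin 2 → Fin 2 → Fn)
    (hψ : ∀ i k, ∀ p : Lp (m + 1), ψ i k p = sl φ 5 (inW (m + 1) i k p))
    (l : Fin 2) (q : Lp (m + 2)) :
    sl (φ.comp (d2m (m + 1))) (sM l) q = cm m ψ l q := by
  rw [sl_d2m, cc_succ]
  simp only [← hψ, cm, tr, LinearMap.add_apply, Fin.sum_univ_two]
  show -((m : ℂ) + 2) * (ψ 0 l (Weyl.d 0 q) + ψ 1 l (Weyl.d 1 q)) +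
      ((m : ℂ) + 2) * (ψ 0 0 (Weyl.d l q) + ψ 1 1 (Weyl.d l q)) = _
  ring

theorem comp_d2 {j : ℕ} (φ : Q1 j →ₗ[A] FL 0) :
    φ.comp (d2 j) = (φ.comp (d2p j)).coprod (φ.comp (d2m j)) := LinearMap.comp_coprod _ _ _

/-- Positive `j`, degree one. -/
theorem low1 (m : ℕ) (φ : Q1 (m + 1) →ₗ[A] FL 0) (h : φ.comp (d2 (m + 1)) = 0) :
    ∃ a : Q0 (m + 1) →ₗ[A] FL 0, a.comp (d1 (m + 1)) = φ := by
  have hp : φ.comp (d2p (m + 1)) = 0 := LinearMap.ext fun x => by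
    simpa [d2] using LinearMap.congr_fun h (x, 0)
  have hm : φ.comp (d2m (m + 1)) = 0 := LinearMap.ext fun x => by
    simpa [d2] using LinearMap.congr_fun h (0, x)
  obtain ⟨ψ, hψ⟩ := exists_four φ
  obtain ⟨G, hG⟩ := deg1 (m := m) ψ
    (fun l t ht => by
      have e := d2p_eq φ ψ hψ l ⟨t, (mem_homogeneousSubmodule _ _).mpr ht⟩
      rw [hp, sl_zero] at e
      exact e.symm)
    (fun l q hq => by
      have e := d2m_eq φ ψ hψ l ⟨q, (mem_homogeneousSubmodule _ _).mpr hq⟩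
      rw [hm, sl_zero] at e
      exact e.symm)
  refine ⟨ofSlots 4 fun _ => res G _, slots_ext fun r hr w => ?_⟩
  rw [slot_three hr, W1_eq_sum w, map_sum, map_sum]
  refine Finset.sum_congr rfl fun i _ => ?_
  rw [map_sum, map_sum]
  refine Finset.sum_congr rfl fun k _ => ?_
  rw [sl_d1_inW, sl_ofSlots (fun _ => res G _) (by rfl), res_apply, aT_coe, ← hψ,
    hG i k _ (isHom _)]

/-- Positive `j`, degree two. -/
theorem low2 (m : ℕ) (φ : Q2 (m + 1) →ₗ[A] FL 0) (h : φ.comp (d3 (m + 1)) = 0) :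
    ∃ b : Q1 (m + 1) →ₗ[A] FL 0, b.comp (d2 (m + 1)) = φ := by
  let φp : Qm 1 (Lm (m + 1)) →ₗ[A] FL 0 := φ.comp (LinearMap.inl A _ _)
  let φm : Qm 2 (Lp (m + 2)) →ₗ[A] FL 0 := φ.comp (LinearMap.inr A _ _)
  have hφ : φp.coprod φm = φ := LinearMap.ext fun z => by
    simp [φp, φm, ← map_add]
  choose P hP using fun l => exists_ext (sl φp (sP l))
  choose M hM using fun l => exists_ext (sl φm (sM l))
  obtain ⟨ψ, h1, h2⟩ := deg2 (m := m) P M fun p hp => by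
    have e := sl_d3 φp φm (⟨p, (mem_homogeneousSubmodule _ _).mpr hp⟩ : Lp (m + 1))
    rw [hφ, h, sl_zero, cc_succ] at e
    simp only [← hP, ← hM, Fin.sum_univ_two] at e
    rw [show ((m : ℂ) + 2) - 1 = (m : ℂ) + 1 by ring] at e
    exact e.symm
  let b : Q1 (m + 1) →ₗ[A] FL 0 :=
    ofSlots 3 fun _ => ∑ i, ∑ k, (res (ψ i k) _).comp (pr (m + 1) i k)
  have hb : ∀ i k, ∀ p : Lp (m + 1), ψ i k p = sl b 5 (inW (m + 1) i k p) := by
    intro i k p
    rw [sl_ofSlots _ (by rfl)]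
    fin_cases i <;> fin_cases k <;> simp [pr, inW_apply, Fin.sum_univ_two]
  refine ⟨b, ?_⟩
  rw [comp_d2, ← hφ]
  refine congrArg₂ LinearMap.coprod (slots_ext fun r hr w => ?_) (slots_ext fun r hr w => ?_)
  · obtain ⟨l, rfl⟩ := slot_one hr
    rw [d2p_eq b ψ hb, ← hP]
    exact h1 l w (isHom (n := m) w)
  · obtain ⟨l, rfl⟩ := slot_two hr
    rw [d2m_eq b ψ hb, ← hM]
    exact h2 l w (isHom w)

/-- Positive `j`, degree three. -/
theorem top (m : ℕ) (φ : Q3 (m + 1) →ₗ[A] FL 0) :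
    ∃ c : Q2 (m + 1) →ₗ[A] FL 0, c.comp (d3 (m + 1)) = φ := by
  obtain ⟨G, hG⟩ := exists_ext (sl φ 0)
  obtain ⟨P, M, h⟩ := deg3 (m := m) G
  refine ⟨(ofSlots 1 fun r => if r = sP 0 then res (P 0) _ else res (P 1) _).coprod
    (ofSlots 2 fun r => if r = sM 0 then res (M 0) _ else res (M 1) _),
    slots_ext fun r hr p => ?_⟩
  rw [slot_zero hr, sl_d3, ← hG, ← h p (isHom p), cc_succ,
    show ((m : ℂ) + 2) - 1 = (m : ℂ) + 1 by ring]
  simp only [Fin.sum_univ_two, sl_ofSlots _ (vx_sP _), sl_ofSlots _ (vx_sM _)]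
  simp [sP, sM]
  rfl

/-- `j = 0`: the first differential has no constant terms. -/
theorem d1_zero (a : Q0 0 →ₗ[A] FL 0) : a.comp (d1 0) = 0 := by
  refine slots_ext fun r hr w => ?_
  rw [slot_three hr, sl_zero, W1_eq_sum w, map_sum]
  refine Finset.sum_eq_zero fun i _ => ?_
  rw [map_sum]
  refine Finset.sum_eq_zero fun k _ => ?_
  rw [sl_d1_inW, neg_eq_zero]
  have : aT 0 i k (w i k) = 0 := Subtype.ext (by
    rw [aT_coe, Weyl.apply_eq_zero (Weyl.d_mem k le_rfl) (isHom (w i k)) (by norm_num)]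
    simp)
  rw [this, map_zero]

theorem one_mem_Lp0 : (1 : Pol) ∈ Lp 0 := (mem_homogeneousSubmodule _ _).mpr (isHomogeneous_one _ _)

/-- The constant one, as a form of degree zero. -/
def one0 : Lp 0 := ⟨1, one_mem_Lp0⟩

theorem Lp0_eq (p : Lp 0) : p = coeff 0 (p : Pol) • one0 := Subtype.ext (by
  conv_lhs => rw [eq_C_of_Lp0 p, C_eq_smul_one]
  rfl)

theorem X_mem_Lp1 (a : Fin 2) : X a ∈ Lp 1 := (mem_homogeneousSubmodule _ _).mpr (isHomogeneous_X _ _)

/-- A variable, as a form of degree one. -/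
def var (a : Fin 2) : Lp (0 + 1) := ⟨X a, X_mem_Lp1 a⟩

theorem dT_var (i a : Fin 2) : dT 0 i (var a) = (if i = a then (1 : ℂ) else 0) • one0 := by
  refine Subtype.ext ?_
  show Weyl.d i (X a) = _
  fin_cases i <;> fin_cases a <;> simp [Weyl.d_apply, one0, pderiv_X]

/-- Functionals on linear forms are determined on the variables. -/
theorem lin_ext {F F' : Lp (0 + 1) →ₗ[ℂ] ℂ} (h : ∀ a, F (var a) = F' (var a)) : F = F' := by
  refine LinearMap.ext fun q => ?_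
  have e : q = coeff 0 (Weyl.d 0 (q : Pol)) • var 0 + coeff 0 (Weyl.d 1 (q : Pol)) • var 1 := by
    refine Subtype.ext ?_
    have h0 := eq_C_of_Lp0 (dT 0 0 q)
    have h1 := eq_C_of_Lp0 (dT 0 1 q)
    show (q : Pol) = coeff 0 (Weyl.d 0 (q : Pol)) • X 0 + coeff 0 (Weyl.d 1 (q : Pol)) • X 1
    conv_lhs => rw [show (q : Pol) = Weyl.x 0 (Weyl.d 0 q) + Weyl.x 1 (Weyl.d 1 q) by
      rw [euler 1 (isHom q)]; simp]
    rw [Weyl.x_apply, Weyl.x_apply, show Weyl.d 0 (q : Pol) = C (coeff 0 (Weyl.d 0 (q : Pol))) from h0,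
      show Weyl.d 1 (q : Pol) = C (coeff 0 (Weyl.d 1 (q : Pol))) from h1, coeff_zero_C, coeff_zero_C,
      smul_eq_C_mul, smul_eq_C_mul]
    ring
  rw [e]
  simp [h]

/-- `j = 0`: the second differential at a variable. -/
theorem sl_d2m_var (φ : Q1 0 →ₗ[A] FL 0) (l a : Fin 2) :
    sl (φ.comp (d2m 0)) (sM l) (var a) = -sl φ 5 (inW 0 a l one0) +
      (if l = a then sl φ 5 (inW 0 0 0 one0) + sl φ 5 (inW 0 1 1 one0) else 0) := by
  rw [sl_d2m]
  simp only [dT_var, map_smul, smul_eq_mul, Fin.sum_univ_two]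
  fin_cases l <;> fin_cases a <;> simp [cc]

theorem Lm0_eq (t : Lm 0) : t = 0 := Subtype.ext ((Submodule.mem_bot ℂ).mp t.2)

/-- `j = 0`, degree one: the second differential is injective. -/
theorem deg1_zero (φ : Q1 0 →ₗ[A] FL 0) (h : φ.comp (d2 0) = 0) : φ = 0 := by
  have hm : φ.comp (d2m 0) = 0 := LinearMap.ext fun x => by
    simpa [d2] using LinearMap.congr_fun h (0, x)
  have e : ∀ l a, -sl φ 5 (inW 0 a l one0) +
      (if l = a then sl φ 5 (inW 0 0 0 one0) + sl φ 5 (inW 0 1 1 one0) else 0) = 0 := fun l a => by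
    rw [← sl_d2m_var, hm, sl_zero]
  have hz : ∀ i k, sl φ 5 (inW 0 i k one0) = 0 := by
    intro i k
    have e00 := e 0 0
    have e01 := e 0 1
    have e10 := e 1 0
    have e11 := e 1 1
    simp at e00 e01 e10 e11
    fin_cases i <;> fin_cases k <;> simp [e00, e01, e10, e11]
  refine slots_ext fun r hr w => ?_
  rw [slot_three hr, sl_zero, W1_eq_sum w, map_sum]
  refine Finset.sum_eq_zero fun i _ => ?_
  rw [map_sum]
  refine Finset.sum_eq_zero fun k _ => ?_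
  rw [Lp0_eq (w i k), map_smul, map_smul, hz, smul_zero]

/-- `j = 0`, degree two: every cochain is a coboundary. -/
theorem deg2_zero (φ : Q2 0 →ₗ[A] FL 0) : ∃ b : Q1 0 →ₗ[A] FL 0, b.comp (d2 0) = φ := by
  let φm : Qm 2 (Lp (0 + 1)) →ₗ[A] FL 0 := φ.comp (LinearMap.inr A _ _)
  let M : Fin 2 → Fin 2 → ℂ := fun l a => sl φm (sM l) (var a)
  let c : Fin 2 → Fin 2 → ℂ := ![![M 1 1, -M 1 0], ![-M 0 1, M 0 0]]
  let b : Q1 0 →ₗ[A] FL 0 := ofSlots 3 fun _ =>
    ∑ i, ∑ k, c i k • (res (lcoeff ℂ (0 : Fin 2 →₀ ℕ)) _).comp (pr 0 i k)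
  have hb : ∀ i k, sl b 5 (inW 0 i k one0) = c i k := fun i k => by
    rw [sl_ofSlots _ (by rfl)]
    fin_cases i <;> fin_cases k <;> simp [pr, inW_apply, Fin.sum_univ_two, one0]
  refine ⟨b, ?_⟩
  rw [comp_d2, show φ = (φ.comp (LinearMap.inl A _ _)).coprod φm from
    LinearMap.ext fun z => by simp [φm, ← map_add]]
  refine congrArg₂ LinearMap.coprod (slots_ext fun r hr t => ?_) (slots_ext fun r hr q => ?_)
  · rw [Lm0_eq t, map_zero, map_zero]
  · obtain ⟨l, rfl⟩ := slot_two hr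
    refine LinearMap.congr_fun (lin_ext fun a => ?_) q
    rw [sl_d2m_var, hb, hb, hb]
    fin_cases l <;> fin_cases a <;> simp [c, M]

/-- `j = 0`: the third differential has no constant terms. -/
theorem d3_zero (c : Q2 0 →ₗ[A] FL 0) : c.comp (d3 0) = 0 := by
  rw [show c = (c.comp (LinearMap.inl A _ _)).coprod (c.comp (LinearMap.inr A _ _)) from
    LinearMap.ext fun z => by simp [← map_add]]
  refine slots_ext fun r hr p => ?_
  rw [slot_zero hr, sl_d3, sl_zero]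
  simp [cc, Lm0_eq (dP 0 _ p)]

/-- The generator of the top cochains of `V`. -/
def phi0 : Q3 0 →ₗ[A] FL 0 := ofSlots 0 fun _ => res (lcoeff ℂ (0 : Fin 2 →₀ ℕ)) _

theorem sl_phi0 (p : Lp 0) : sl phi0 0 p = coeff 0 (p : Pol) := by
  rw [phi0, sl_ofSlots _ (by rfl)]
  rfl

theorem phi0_not_coboundary : ¬ ∃ c : Q2 0 →ₗ[A] FL 0, c.comp (d3 0) = phi0 := by
  rintro ⟨c, hc⟩
  have h : sl phi0 0 one0 = 0 := by rw [← hc, d3_zero, sl_zero]
  rw [sl_phi0] at h
  simp [one0] at h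

/-- Every top cochain of `V` is a multiple of the generator, pointwise. -/
theorem phi0_span (φ : Q3 0 →ₗ[A] FL 0) : ∃ a : ℂ, ∀ z, φ z = a • phi0 z := by
  refine ⟨sl φ 0 one0, fun z => ?_⟩
  let ψ : Q3 0 →ₗ[A] FL 0 :=
    { toFun := fun z => sl φ 0 one0 • phi0 z
      map_add' := fun z z' => by rw [map_add, smul_add]
      map_smul' := fun g z => by rw [map_smul, RingHom.id_apply, smul_comm] }
  suffices φ = ψ from LinearMap.congr_fun this z
  refine slots_ext fun r hr p => ?_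
  rw [slot_zero hr]
  have e : sl ψ 0 p = sl φ 0 one0 * sl phi0 0 p := by
    rw [sl_apply, sl_apply]
    show coord (sl φ 0 one0 • (homEquiv 0 phi0 p : FL 0)) 0 = _
    rw [map_smul]
    rfl
  rw [e, sl_phi0]
  conv_lhs => rw [Lp0_eq p, map_smul, smul_eq_mul, mul_comm]

end Vale.Agent.P195.SelfExt
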