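import Vale.Agent.P195.Model.Orbit
import Vale.Agent.P195.Model.Cplx

/-!
P195, self-extensions: the head `FL 0` of the orbit at each vertex, by constant terms.
-/

noncomputable section

namespace Vale.Agent.P195.SelfExt

open MvPolynomial Model

/-- The constant term of an operator applied to `1`. -/
def cst : Weyl.Op →ₗ[ℂ] ℂ :=
  (lcoeff ℂ (0 : Fin 2 →₀ ℕ)).comp (LinearMap.applyₗ (1 : Weyl.Pol))

theorem cst_apply (u : Weyl.Op) : cst u = coeff 0 (u 1) := rfl

theorem eq_C_of_Lp0 (p : Lp 0) : (p : Weyl.Pol) = C (coeff 0 (p : Weyl.Pol)) := by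
  have h : (p : Weyl.Pol).IsHomogeneous 0 := (mem_homogeneousSubmodule _ _).mp p.2
  rw [← totalDegree_zero_iff_isHomogeneous, totalDegree_eq_zero_iff_eq_C] at h
  exact h

/-- The seven coordinates of `FL 0`. -/
def coord : FL 0 ≃ₗ[ℂ] (Fin 7 → ℂ) where
  toFun f r := coeff 0 (f r : Weyl.Pol)
  map_add' f f' := funext fun r => coeff_add 0 (f r : Weyl.Pol) (f' r : Weyl.Pol)
  map_smul' z f := funext fun r => by simp
  invFun v r := ⟨C (v r), (mem_homogeneousSubmodule _ _).mpr (isHomogeneous_C _ _)⟩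
  left_inv f := funext fun r => Subtype.ext (eq_C_of_Lp0 (f r)).symm
  right_inv v := funext fun r => coeff_zero_C _

theorem coord_apply (f : FL 0) (r : Fin 7) : coord f r = coeff 0 (f r : Weyl.Pol) := rfl

/-- The action on constants. -/
theorem coord_smul (g : A) (f : FL 0) (r : Fin 7) :
    coord (g • f) r = ∑ k, cst (bPart g r k) * coord f k := by
  rw [coord_apply, smul_val, coeff_sum]
  refine Finset.sum_congr rfl fun k _ => ?_
  conv_lhs => rw [eq_C_of_Lp0 (f k), C_eq_smul_one, map_smul, coeff_smul]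
  rw [smul_eq_mul, mul_comm, cst_apply, coord_apply]

/-- The part at a vertex: only the slots of the vertex. -/
theorem mem_eX_FL0 {k : Fin 5} {f : FL 0} :
    f ∈ eX k (FL 0) ↔ ∀ r, vx r ≠ k → coord f r = 0 := by
  refine ⟨fun h r hr => ?_, fun h => funext fun r => Subtype.ext ?_⟩
  · rw [coord_apply, show f = eV k • f from h.symm, eV_smul, if_neg hr, coeff_zero]
  · show ((eV k • f) r : Weyl.Pol) = f r
    rw [eV_smul]
    split_ifs with hr
    · rfl
    · rw [eq_C_of_Lp0 (f r), ← coord_apply, h r hr, map_zero]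

/-- A linear map into the part at a vertex from functionals, one for each slot. -/
def vMap {W : Type*} [AddCommGroup W] [Module ℂ W] (k : Fin 5) (F : Fin 7 → (W →ₗ[ℂ] ℂ)) :
    W →ₗ[ℂ] eX k (FL 0) :=
  LinearMap.codRestrict _
    (coord.symm.toLinearMap ∘ₗ LinearMap.pi fun r => if vx r = k then F r else 0)
    fun w => mem_eX_FL0.mpr fun r hr => by
      rw [LinearMap.comp_apply, LinearEquiv.coe_coe, LinearEquiv.apply_symm_apply,
        LinearMap.pi_apply, if_neg hr, LinearMap.zero_apply]

theorem coord_vMap {W : Type*} [AddCommGroup W] [Module ℂ W] (k : Fin 5)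
    (F : Fin 7 → (W →ₗ[ℂ] ℂ)) (w : W) (r : Fin 7) :
    coord (vMap k F w : FL 0) r = if vx r = k then F r w else 0 := by
  show coord (coord.symm fun r => (if vx r = k then F r else 0) w) r = _
  rw [LinearEquiv.apply_symm_apply]
  split_ifs <;> rfl

/-- Two maps into a vertex part agree when they agree on the slots of the vertex. -/
theorem vMap_ext {W : Type*} [AddCommGroup W] [Module ℂ W] {k : Fin 5}
    {ψ ψ' : W →ₗ[ℂ] eX k (FL 0)}
    (h : ∀ w r, vx r = k → coord (ψ w : FL 0) r = coord (ψ' w : FL 0) r) : ψ = ψ' := by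
  refine LinearMap.ext fun w => Subtype.ext (coord.injective (funext fun r => ?_))
  by_cases hr : vx r = k
  · exact h w r hr
  · rw [mem_eX_FL0.mp (ψ w).2 r hr, mem_eX_FL0.mp (ψ' w).2 r hr]

end Vale.Agent.P195.SelfExt
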