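import Vale.Agent.P195.SelfExt.Pure
import Vale.Agent.P195.SelfExt.Vertex
import Vale.Agent.P195.Model.Maps

/-!
P195, self-extensions: the cochains of the differentials into the constants, slot by slot.
-/

noncomputable section

namespace Vale.Agent.P195.SelfExt

open MvPolynomial Model Matrix
open Weyl (Pol)

theorem cst_one : cst 1 = 1 := by simp [cst_apply]

theorem cst_a (i k : Fin 2) : cst (Maps.a i k) = 0 := by simp [cst_apply, Maps.a]

theorem cst_xd (i k : Fin 2) : cst (Weyl.x i * Weyl.d k) = 0 := by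
  simp [cst_apply, Weyl.d_apply]

theorem cst_dx (i k : Fin 2) : cst (Weyl.d i * Weyl.x k) = (if i = k then 1 else 0) := by
  fin_cases i <;> fin_cases k <;>
    simp [cst_apply, Weyl.d_apply, Weyl.x_apply, pderiv_X]

theorem cst_E : cst Maps.E = 0 := by simp [Maps.E, cst_a]

/-- The action of a degree-zero matrix on constants. -/
theorem coord_ofB (b : Mat) (hb : b ∈ hom 0 0) (v : FL 0) (r : Fin 7) :
    coord (ofB b hb • v) r = ∑ k, cst (b r k) * coord v k := by
  rw [coord_smul, bPart_ofB]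

theorem coord_mA (i k : Fin 2) (v : FL 0) : coord (ofB (mA i k) (hom_A i k) • v) 5 = 0 := by
  simp [coord_ofB, mA, single_apply, apply_ite cst, cst_a]

theorem coord_mJ (v : FL 0) : coord (ofB mJ hom_J • v) 5 = coord v 6 := by
  simp [coord_ofB, mJ, single_apply, apply_ite cst, cst_one]

theorem coord_mBp (i l : Fin 2) (v : FL 0) :
    coord (ofB (mBp i) (hom_Bp i) • v) (sP l) = (if i = l then 1 else 0) * coord v 5 := by
  fin_cases i <;> fin_cases l <;>
    simp [coord_ofB, mBp, sP, Maps.δ, Matrix.sum_apply, single_apply, apply_ite cst, cst_a,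
      cst_E, cst_one, Fin.sum_univ_seven, Fin.sum_univ_two]

theorem coord_mUp (i l : Fin 2) (v : FL 0) :
    coord (ofB (mUp i) (hom_Up i) • v) (sP l) = (if i = l then 1 else 0) * coord v 5 := by
  fin_cases i <;> fin_cases l <;>
    simp [coord_ofB, mUp, sP, single_apply, apply_ite cst, cst_one, Fin.sum_univ_seven]

theorem coord_mBm (k l : Fin 2) (v : FL 0) :
    coord (ofB (mBm k) (hom_Bm k) • v) (sM l) = 0 := by
  fin_cases k <;> fin_cases l <;>
    simp [coord_ofB, mBm, sM, Maps.δ, Matrix.sum_apply, single_apply, apply_ite cst, cst_a,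
      cst_E, Fin.sum_univ_seven, Fin.sum_univ_two]

theorem coord_mUm (k l : Fin 2) (v : FL 0) :
    coord (ofB (mUm k) (hom_Um k) • v) (sM l) = (if k = l then 1 else 0) * coord v 5 := by
  fin_cases k <;> fin_cases l <;>
    simp [coord_ofB, mUm, sM, single_apply, apply_ite cst, cst_one, Fin.sum_univ_seven]

theorem coord_mGp (m : Fin 2) (v : FL 0) : coord (ofB (mGp m) (hom_Gp m) • v) 0 = 0 := by
  fin_cases m <;>
    simp [coord_ofB, mGp, sP, Matrix.sum_apply, single_apply, apply_ite cst, cst_xd,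
      Fin.sum_univ_seven, Fin.sum_univ_two]

theorem coord_mVp (m : Fin 2) (v : FL 0) :
    coord (ofB (mVp m) (hom_Vp m) • v) 0 = coord v (sP m) := by
  fin_cases m <;>
    simp [coord_ofB, mVp, sP, single_apply, apply_ite cst, cst_one, Fin.sum_univ_seven]

theorem coord_mGm (m : Fin 2) (v : FL 0) :
    coord (ofB (mGm m) (hom_Gm m) • v) 0 = coord v (sM m) := by
  fin_cases m <;>
    simp [coord_ofB, mGm, sM, Matrix.sum_apply, single_apply, apply_ite cst, cst_dx,
      Fin.sum_univ_seven, Fin.sum_univ_two]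

theorem coord_mVm (m : Fin 2) (v : FL 0) :
    coord (ofB (mVm m) (hom_Vm m) • v) 0 = coord v (sM m) := by
  fin_cases m <;>
    simp [coord_ofB, mVm, sM, single_apply, apply_ite cst, cst_one, Fin.sum_univ_seven]

section Slots

variable {W : Type} [AddCommGroup W] [Module ℂ W] {k : Fin 5}

/-- The functional of a cochain at a slot. -/
def sl (φ : Qm k W →ₗ[A] FL 0) (r : Fin 7) : W →ₗ[ℂ] ℂ :=
  (LinearMap.proj r).comp (coord.toLinearMap.comp ((eX k (FL 0)).subtype.comp (homEquiv k φ)))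

theorem sl_apply (φ : Qm k W →ₗ[A] FL 0) (r : Fin 7) (w : W) :
    sl φ r w = coord (homEquiv k φ w : FL 0) r := rfl

/-- A cochain with prescribed functionals. -/
def ofSlots (k : Fin 5) (F : Fin 7 → (W →ₗ[ℂ] ℂ)) : Qm k W →ₗ[A] FL 0 :=
  (homEquiv k).symm (vMap k F)

theorem sl_ofSlots (F : Fin 7 → (W →ₗ[ℂ] ℂ)) {r : Fin 7} (h : vx r = k) (w : W) :
    sl (ofSlots k F) r w = F r w := by
  rw [sl_apply, ofSlots, Equiv.apply_symm_apply, coord_vMap, if_pos h]

theorem slots_ext {φ φ' : Qm k W →ₗ[A] FL 0}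
    (h : ∀ r, vx r = k → ∀ w, sl φ r w = sl φ' r w) : φ = φ' :=
  (homEquiv k).injective (vMap_ext fun w r hr => h r hr w)

theorem sl_zero (r : Fin 7) (w : W) : sl (0 : Qm k W →ₗ[A] FL 0) r w = 0 := by
  rw [sl_apply, show ((homEquiv k (0 : Qm k W →ₗ[A] FL 0) w : FL 0)) = 0 from rfl, map_zero]
  rfl

end Slots

variable {j : ℕ}

theorem sl_d1 (φ : Q0 j →ₗ[A] FL 0) (w : W1 j) :
    sl (φ.comp (d1 j)) 5 w = -∑ i, ∑ k, sl φ 6 (aT j i k (w i k)) := by
  rw [sl_apply, d1_cochain]
  simp only [map_sum, map_add, Finset.sum_apply, Pi.add_apply, coord_mA, coord_mJ, zero_add,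
    map_smul, Submodule.coe_smul, Pi.smul_apply, smul_eq_mul, neg_one_mul,
    Finset.sum_neg_distrib, sl_apply]

theorem sl_d2p (φ : Q1 j →ₗ[A] FL 0) (l : Fin 2) (t : Lm j) :
    sl (φ.comp (d2p j)) (sP l) t =
      (1 - cc j) * (∑ k, sl φ 5 (inW j l k (xP j k t))) +
        cc j * ∑ i, sl φ 5 (inW j i i (xP j l t)) := by
  rw [sl_apply, d2p_cochain]
  simp only [map_add, map_sum, Pi.add_apply, Finset.sum_apply, coord_mBp, coord_mUp, map_smul,
    Submodule.coe_smul, Pi.smul_apply, ← sl_apply, smul_eq_mul]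
  fin_cases l <;> simp [Fin.sum_univ_two] <;> ring

theorem sl_d2m (φ : Q1 j →ₗ[A] FL 0) (l : Fin 2) (q : Lp (j + 1)) :
    sl (φ.comp (d2m j)) (sM l) q =
      -cc j * (∑ i, sl φ 5 (inW j i l (dT j i q))) +
        cc j * ∑ i, sl φ 5 (inW j i i (dT j l q)) := by
  rw [sl_apply, d2m_cochain]
  simp only [map_add, map_sum, Pi.add_apply, Finset.sum_apply, coord_mBm, coord_mUm, map_smul,
    Submodule.coe_smul, Pi.smul_apply, ← sl_apply, smul_eq_mul]
  fin_cases l <;> simp [Fin.sum_univ_two] <;> ring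

theorem sl_d3 (φp : Qm 1 (Lm j) →ₗ[A] FL 0) (φm : Qm 2 (Lp (j + 1)) →ₗ[A] FL 0) (p : Lp j) :
    sl ((φp.coprod φm).comp (d3 j)) 0 p =
      -cc j * (∑ m, sl φp (sP m) (dP j m p)) + (cc j - 1) * ∑ m, sl φm (sM m) (xT j m p) := by
  rw [sl_apply, d3_cochain]
  simp only [map_add, map_sum, Pi.add_apply, Finset.sum_apply, coord_mGp, coord_mVp, coord_mGm,
    coord_mVm, map_smul, Submodule.coe_smul, Pi.smul_apply, ← sl_apply, smul_eq_mul,
    Fin.sum_univ_two]
  ring

end Vale.Agent.P195.SelfExt
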