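import Vale.Agent.P195.Weyl.Symbol
import Mathlib.Tactic.LinearCombination
import Mathlib.Tactic.FieldSimp
import Mathlib.Tactic.Ring

/-!
P195, self-extensions: the constant-term cochains of the orbit resolutions are exact.

For the forms of degree `m + 1` the cochains are: a functional `φ` on degree `m + 1`; four
functionals `ψ i k` on degree `m + 1`; two functionals on degree `m` and two on degree `m + 2`;
a functional on degree `m + 1`.
-/

noncomputable section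

namespace Vale.Agent.P195.SelfExt

open Weyl MvPolynomial

/-- Functionals on polynomials. -/
abbrev Fn : Type := Pol →ₗ[ℂ] ℂ

variable {m : ℕ}

theorem d_x_swap (a : Fin 2) (f : Pol) : d a (x a f) = x a (d a f) + f := by
  rw [← Module.End.mul_apply, d_x_self]
  rfl

theorem d_x_swap_ne {a b : Fin 2} (h : a ≠ b) (f : Pol) : d a (x b f) = x b (d a f) := by
  rw [← Module.End.mul_apply, d_x_ne h]
  rfl

theorem d_d (a b : Fin 2) (f : Pol) : d a (d b f) = d b (d a f) :=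
  LinearMap.congr_fun (d_comm a b).eq f

theorem x_x (a b : Fin 2) (f : Pol) : x a (x b f) = x b (x a f) := by
  simp only [x_apply]; ring

theorem x_isHomogeneous {n : ℕ} {f : Pol} (hf : f.IsHomogeneous n) (a : Fin 2) :
    (x a f).IsHomogeneous (n + 1) := by
  rw [x_apply, add_comm n 1]
  exact (isHomogeneous_X ℂ a).mul hf

theorem d_isHomogeneous {n : ℕ} {f : Pol} (hf : f.IsHomogeneous (n + 1)) (a : Fin 2) :
    (d a f).IsHomogeneous n := by
  rw [d_apply]
  simpa using hf.pderiv (i := a)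

theorem euler (n : ℕ) {f : Pol} (hf : f.IsHomogeneous n) :
    x 0 (d 0 f) + x 1 (d 1 f) = (n : ℂ) • f := by
  rw [← euler_apply hf]; rfl

theorem euler_dx {n : ℕ} {f : Pol} (hf : f.IsHomogeneous n) :
    d 0 (x 0 f) + d 1 (x 1 f) = ((n : ℂ) + 2) • f := by
  rw [d_x_swap, d_x_swap, add_smul, ← euler n hf, two_smul]
  abel

/-- The two halves of the plane: every pair is a radial part plus an angular part. -/
theorem row_eq_zero {g : Fin 2 → Fn}
    (hrad : ∀ t : Pol, t.IsHomogeneous m → g 0 (x 0 t) + g 1 (x 1 t) = 0)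
    (hang : ∀ q : Pol, q.IsHomogeneous (m + 2) → g 0 (d 1 q) - g 1 (d 0 q) = 0)
    (k : Fin 2) {p : Pol} (hp : p.IsHomogeneous (m + 1)) : g k p = 0 := by
  have hc : ((m : ℂ) + 2) ≠ 0 := by exact_mod_cast (by omega : m + 2 ≠ 0)
  have e : x 0 (d 0 p) + x 1 (d 1 p) = ((m : ℂ) + 1) • p := by
    rw [euler (m + 1) hp]; norm_num
  fin_cases k
  · have h1 := hrad _ (d_isHomogeneous hp 0)
    have h2 := hang _ (x_isHomogeneous hp 1)
    rw [d_x_swap, d_x_swap_ne (show (0 : Fin 2) ≠ 1 by decide), map_add] at h2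
    have e' : g 0 (x 0 (d 0 p)) + g 0 (x 1 (d 1 p)) = ((m : ℂ) + 1) * g 0 p := by
      rw [← map_add, e, map_smul, smul_eq_mul]
    refine (mul_eq_zero.1 (show ((m : ℂ) + 2) * g 0 p = 0 from ?_)).resolve_left hc
    linear_combination h1 + h2 - e'
  · have h1 := hrad _ (d_isHomogeneous hp 1)
    have h2 := hang _ (x_isHomogeneous hp 0)
    rw [d_x_swap, d_x_swap_ne (show (1 : Fin 2) ≠ 0 by decide), map_add] at h2
    have e' : g 1 (x 0 (d 0 p)) + g 1 (x 1 (d 1 p)) = ((m : ℂ) + 1) * g 1 p := by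
      rw [← map_add, e, map_smul, smul_eq_mul]
    refine (mul_eq_zero.1 (show ((m : ℂ) + 2) * g 1 p = 0 from ?_)).resolve_left hc
    linear_combination h1 - h2 - e'

/-- The trace of the four functionals. -/
def tr (ψ : Fin 2 → Fin 2 → Fn) : Fn := ψ 0 0 + ψ 1 1

/-- The component towards `S⁺`. -/
def cp (m : ℕ) (ψ : Fin 2 → Fin 2 → Fn) (l : Fin 2) (t : Pol) : ℂ :=
  -((m : ℂ) + 1) * (ψ l 0 (x 0 t) + ψ l 1 (x 1 t)) + ((m : ℂ) + 2) * tr ψ (x l t)

/-- The component towards `S⁻`. -/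
def cm (m : ℕ) (ψ : Fin 2 → Fin 2 → Fn) (l : Fin 2) (q : Pol) : ℂ :=
  ((m : ℂ) + 2) * (tr ψ (d l q) - (ψ 0 l (d 0 q) + ψ 1 l (d 1 q)))

/-- Degree zero: a cochain killed by all `x_i ∂_k` is zero. -/
theorem deg0 (φ : Fn) (h : ∀ i k, ∀ p : Pol, p.IsHomogeneous (m + 1) → φ (x i (d k p)) = 0)
    {p : Pol} (hp : p.IsHomogeneous (m + 1)) : φ p = 0 := by
  have e := congrArg φ (euler (m + 1) hp)
  rw [map_add, h 0 0 p hp, h 1 1 p hp, add_zero, map_smul, smul_eq_mul] at e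
  exact (mul_eq_zero.1 e.symm).resolve_left (by exact_mod_cast (by omega : m + 1 ≠ 0))

/-- Degree one: cocycles are coboundaries. -/
theorem deg1 (ψ : Fin 2 → Fin 2 → Fn)
    (hp' : ∀ l, ∀ t : Pol, t.IsHomogeneous m → cp m ψ l t = 0)
    (hm' : ∀ l, ∀ q : Pol, q.IsHomogeneous (m + 2) → cm m ψ l q = 0) :
    ∃ φ : Fn, ∀ i k, ∀ p : Pol, p.IsHomogeneous (m + 1) → ψ i k p = -φ (x i (d k p)) := by
  have hc1 : ((m : ℂ) + 1) ≠ 0 := by exact_mod_cast (by omega : m + 1 ≠ 0)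
  have hc2 : ((m : ℂ) + 2) ≠ 0 := by exact_mod_cast (by omega : m + 2 ≠ 0)
  refine ⟨-(((m : ℂ) + 1)⁻¹) • tr ψ, fun i k p hp => ?_⟩
  let a : Fin 2 → Fin 2 → Fn := fun i k =>
    ((m : ℂ) + 1) • ψ i k - (tr ψ).comp (x i * d k)
  have aval : ∀ i k f, a i k f = ((m : ℂ) + 1) * ψ i k f - tr ψ (x i (d k f)) := fun i k f => rfl
  have htr : ∀ f : Pol, f.IsHomogeneous (m + 1) → a 0 0 f + a 1 1 f = 0 := by
    intro f hf
    have e := congrArg (tr ψ) (euler (m + 1) hf)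
    rw [map_add, map_smul, smul_eq_mul, Nat.cast_add, Nat.cast_one] at e
    have t0 : tr ψ f = ψ 0 0 f + ψ 1 1 f := rfl
    rw [aval, aval]
    linear_combination -e - ((m : ℂ) + 1) * t0
  have hrad : ∀ l, ∀ t : Pol, t.IsHomogeneous m → a l 0 (x 0 t) + a l 1 (x 1 t) = 0 := by
    intro l t ht
    have h := hp' l t ht
    have e := congrArg (fun f => tr ψ (x l f)) (euler_dx ht)
    simp only [map_add, map_smul, smul_eq_mul] at e
    rw [cp] at h
    rw [aval, aval]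
    linear_combination -h - e
  have hcol : ∀ l, ∀ q : Pol, q.IsHomogeneous (m + 2) → a 0 l (d 0 q) + a 1 l (d 1 q) = 0 := by
    intro l q hq
    have h := (mul_eq_zero.1 (hm' l q hq)).resolve_left hc2
    have e := congrArg (tr ψ) (euler (m + 1) (d_isHomogeneous hq l))
    rw [map_add, map_smul, smul_eq_mul, Nat.cast_add, Nat.cast_one] at e
    rw [aval, aval, d_d l 0, d_d l 1]
    linear_combination -((m : ℂ) + 1) * h - e
  have hang : ∀ l, ∀ q : Pol, q.IsHomogeneous (m + 2) → a l 0 (d 1 q) - a l 1 (d 0 q) = 0 := by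
    intro l q hq
    have t0 := htr _ (d_isHomogeneous hq 0)
    have t1 := htr _ (d_isHomogeneous hq 1)
    have c0 := hcol 0 q hq
    have c1 := hcol 1 q hq
    fin_cases l
    · show a 0 0 (d 1 q) - a 0 1 (d 0 q) = 0
      linear_combination t1 - c1
    · show a 1 0 (d 1 q) - a 1 1 (d 0 q) = 0
      linear_combination c0 - t0
  have h := row_eq_zero (g := a i) (hrad i) (hang i) k hp
  rw [aval] at h
  simp only [LinearMap.smul_apply, smul_eq_mul]
  field_simp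
  linear_combination h

/-- Degree two: cocycles are coboundaries. -/
theorem deg2 (P M : Fin 2 → Fn)
    (h : ∀ p : Pol, p.IsHomogeneous (m + 1) → -((m : ℂ) + 2) * (P 0 (d 0 p) + P 1 (d 1 p)) +
      ((m : ℂ) + 1) * (M 0 (x 0 p) + M 1 (x 1 p)) = 0) :
    ∃ ψ : Fin 2 → Fin 2 → Fn, (∀ l, ∀ t : Pol, t.IsHomogeneous m → cp m ψ l t = P l t) ∧
      (∀ l, ∀ q : Pol, q.IsHomogeneous (m + 2) → cm m ψ l q = M l q) := by
  have hc1 : ((m : ℂ) + 1) ≠ 0 := by exact_mod_cast (by omega : m + 1 ≠ 0)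
  have hc2 : ((m : ℂ) + 2) ≠ 0 := by exact_mod_cast (by omega : m + 2 ≠ 0)
  let u : ℂ := -(((m : ℂ) + 1) * ((m : ℂ) + 2))⁻¹
  let v : ℂ := -(((m : ℂ) + 2) * ((m : ℂ) + 2))⁻¹
  let ψ : Fin 2 → Fin 2 → Fn :=
    ![![u • (P 0).comp (d 0) - v • (M 1).comp (x 1), u • (P 0).comp (d 1) + v • (M 1).comp (x 0)],
      ![u • (P 1).comp (d 0) + v • (M 0).comp (x 1), u • (P 1).comp (d 1) - v • (M 0).comp (x 0)]]
  have p00 : ∀ f, ψ 0 0 f = u * P 0 (d 0 f) - v * M 1 (x 1 f) := fun f => rfl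
  have p01 : ∀ f, ψ 0 1 f = u * P 0 (d 1 f) + v * M 1 (x 0 f) := fun f => rfl
  have p10 : ∀ f, ψ 1 0 f = u * P 1 (d 0 f) + v * M 0 (x 1 f) := fun f => rfl
  have p11 : ∀ f, ψ 1 1 f = u * P 1 (d 1 f) - v * M 0 (x 0 f) := fun f => rfl
  have htr : ∀ f : Pol, f.IsHomogeneous (m + 1) → tr ψ f = 0 := by
    intro f hf
    have t0 : tr ψ f = ψ 0 0 f + ψ 1 1 f := rfl
    have h' := h f hf
    rw [t0, p00, p11]
    simp only [u, v]
    field_simp
    linear_combination h'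
  refine ⟨ψ, fun l t ht => ?_, fun l q hq => ?_⟩
  · have e : ∀ Φ : Fn, Φ (d 0 (x 0 t)) + Φ (d 1 (x 1 t)) = ((m : ℂ) + 2) * Φ t := fun Φ => by
      rw [← map_add, euler_dx ht, map_smul, smul_eq_mul]
    rw [cp, htr _ (x_isHomogeneous ht l), mul_zero, add_zero]
    fin_cases l
    · show -((m : ℂ) + 1) * (ψ 0 0 (x 0 t) + ψ 0 1 (x 1 t)) = P 0 t
      rw [p00, p01, x_x 1 0 t]
      simp only [u, v]
      field_simp
      linear_combination ((m : ℂ) + 2) * e (P 0)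
    · show -((m : ℂ) + 1) * (ψ 1 0 (x 0 t) + ψ 1 1 (x 1 t)) = P 1 t
      rw [p10, p11, x_x 1 0 t]
      simp only [u, v]
      field_simp
      linear_combination ((m : ℂ) + 2) * e (P 1)
  · have hE : ∀ Φ : Fn, Φ (x 0 (d 0 q)) + Φ (x 1 (d 1 q)) = ((m : ℂ) + 2) * Φ q := fun Φ => by
      rw [← map_add, euler (m + 2) hq, map_smul, smul_eq_mul]
      push_cast
      ring
    rw [cm, htr _ (d_isHomogeneous hq l), zero_sub]
    fin_cases l
    · show ((m : ℂ) + 2) * -(ψ 0 0 (d 0 q) + ψ 1 0 (d 1 q)) = M 0 q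
      have h0 := h _ (d_isHomogeneous hq 0)
      rw [d_d 1 0 q] at h0
      rw [p00, p10]
      simp only [u, v]
      field_simp
      linear_combination -h0 + ((m : ℂ) + 1) * hE (M 0)
    · show ((m : ℂ) + 2) * -(ψ 0 1 (d 0 q) + ψ 1 1 (d 1 q)) = M 1 q
      have h0 := h _ (d_isHomogeneous hq 1)
      rw [d_d 0 1 q] at h0
      rw [p01, p11]
      simp only [u, v]
      field_simp
      linear_combination -h0 + ((m : ℂ) + 1) * hE (M 1)

/-- Degree three: every cochain is a coboundary. -/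
theorem deg3 (φ : Fn) :
    ∃ P M : Fin 2 → Fn, ∀ p : Pol, p.IsHomogeneous (m + 1) →
      -((m : ℂ) + 2) * (P 0 (d 0 p) + P 1 (d 1 p)) +
        ((m : ℂ) + 1) * (M 0 (x 0 p) + M 1 (x 1 p)) = φ p := by
  have hc1 : ((m : ℂ) + 1) ≠ 0 := by exact_mod_cast (by omega : m + 1 ≠ 0)
  have hc2 : ((m : ℂ) + 2) ≠ 0 := by exact_mod_cast (by omega : m + 2 ≠ 0)
  refine ⟨fun l => (-(((m : ℂ) + 1) * ((m : ℂ) + 2))⁻¹) • φ.comp (x l), fun _ => 0,
    fun p hp => ?_⟩
  have e := congrArg φ (euler (m + 1) hp)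
  rw [map_add, map_smul, smul_eq_mul, Nat.cast_add, Nat.cast_one] at e
  simp only [LinearMap.zero_apply, add_zero, mul_zero, LinearMap.smul_apply,
    LinearMap.comp_apply, smul_eq_mul]
  field_simp
  linear_combination e

end Vale.Agent.P195.SelfExt
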